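import Mathlib

/-!
Real analysis for the entropy of thermal states: the function `g`, its inverse `phN`, concavity of
the photon number of a two-point distribution and convexity of `(a, b) ↦ g (η g⁻¹ a + (1-η) g⁻¹ b)`.
-/

namespace Vale.Agent.P369

open Real Set

/-- The entropy of the thermal state with mean photon number `x`. -/
noncomputable def thermalS (x : ℝ) : ℝ := (x + 1) * log (x + 1) - x * log x

/-- The inverse of `thermalS` on the nonnegative reals. -/
noncomputable def phN (s : ℝ) : ℝ := Function.invFunOn thermalS (Ici 0) s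

/-- The derivative of `thermalS`. -/
noncomputable def LL (x : ℝ) : ℝ := log (x + 1) - log x

/-- `x (x+1) g'(x)`. -/
noncomputable def RR (x : ℝ) : ℝ := x * (x + 1) * LL x

theorem thermalS_zero : thermalS 0 = 0 := by simp [thermalS]

theorem hasDerivAt_thermalS {x : ℝ} (hx : 0 < x) : HasDerivAt thermalS (LL x) x := by
  have h1 : HasDerivAt (fun t : ℝ => (t + 1) * log (t + 1)) (log (x + 1) + 1) x := by
    have := (hasDerivAt_mul_log (show x + 1 ≠ 0 by linarith)).comp x ((hasDerivAt_id' x).add_const (1 : ℝ))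
    simpa [Function.comp_def] using this
  have h2 := h1.sub (hasDerivAt_mul_log hx.ne')
  exact h2.congr_deriv (by simp [LL])

theorem continuous_thermalS : Continuous thermalS := by
  unfold thermalS
  exact ((continuous_mul_log).comp (continuous_id.add continuous_const)).sub continuous_mul_log

theorem LL_pos {x : ℝ} (hx : 0 < x) : 0 < LL x := by
  unfold LL; linarith [log_lt_log hx (show x < x + 1 by linarith)]

theorem hasDerivAt_LL {x : ℝ} (hx : 0 < x) : HasDerivAt LL (-(1 / (x * (x + 1)))) x := by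
  have h := (((hasDerivAt_id' x).add_const (1 : ℝ)).log (by linarith : x + 1 ≠ 0)).sub (hasDerivAt_log hx.ne')
  exact h.congr_deriv (by have : x + 1 ≠ 0 := by linarith
                          field_simp; ring)

theorem strictMonoOn_thermalS : StrictMonoOn thermalS (Ici 0) := by
  refine strictMonoOn_of_deriv_pos (convex_Ici 0) continuous_thermalS.continuousOn fun x hx => ?_
  rw [interior_Ici] at hx
  rw [(hasDerivAt_thermalS hx).deriv]
  exact LL_pos hx

theorem surjOn_thermalS : SurjOn thermalS (Ici 0) (Ici 0) := by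
  intro s hs
  have hs' : (0 : ℝ) ≤ s := hs
  have he : 0 ≤ exp s := (exp_pos s).le
  have htop : s ≤ thermalS (exp s) := by
    have h1 : log (exp s) ≤ log (exp s + 1) := log_le_log (exp_pos s) (by linarith)
    have h2 : 0 ≤ exp s * (log (exp s + 1) - log (exp s)) := mul_nonneg he (by linarith)
    rw [log_exp] at h1 h2
    unfold thermalS; rw [log_exp]; nlinarith
  obtain ⟨x, hx, hxs⟩ := intermediate_value_Icc he continuous_thermalS.continuousOn
    (show s ∈ Icc (thermalS 0) (thermalS (exp s)) from ⟨by rw [thermalS_zero]; exact hs', htop⟩)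
  exact ⟨x, hx.1, hxs⟩

theorem phN_nonneg {s : ℝ} (hs : 0 ≤ s) : 0 ≤ phN s :=
  Function.invFunOn_mem (surjOn_thermalS hs)

theorem thermalS_phN {s : ℝ} (hs : 0 ≤ s) : thermalS (phN s) = s :=
  Function.invFunOn_eq (surjOn_thermalS hs)

theorem thermalS_nonneg {x : ℝ} (hx : 0 ≤ x) : 0 ≤ thermalS x := by
  have := strictMonoOn_thermalS.monotoneOn (self_mem_Ici) (mem_Ici.2 hx) hx
  rwa [thermalS_zero] at this

theorem phN_thermalS {x : ℝ} (hx : 0 ≤ x) : phN (thermalS x) = x :=
  strictMonoOn_thermalS.injOn (phN_nonneg (thermalS_nonneg hx)) hx (thermalS_phN (thermalS_nonneg hx))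

theorem phN_zero : phN 0 = 0 := by
  have := phN_thermalS (le_refl (0 : ℝ)); rwa [thermalS_zero] at this

theorem phN_mono {a b : ℝ} (ha : 0 ≤ a) (hab : a ≤ b) : phN a ≤ phN b := by
  rw [← strictMonoOn_thermalS.le_iff_le (phN_nonneg ha) (phN_nonneg (ha.trans hab)),
    thermalS_phN ha, thermalS_phN (ha.trans hab)]
  exact hab

theorem phN_pos {s : ℝ} (hs : 0 < s) : 0 < phN s := by
  rcases (phN_nonneg hs.le).lt_or_eq with h | h
  · exact h
  · have := thermalS_phN hs.le; rw [← h, thermalS_zero] at this; linarith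

theorem continuousOn_phN : ContinuousOn phN (Ici 0) := by
  have hmono : Monotone fun s : ℝ => if s < 0 then s else phN s := by
    intro a b hab
    dsimp only
    split_ifs with ha hb hb
    · exact hab
    · linarith [phN_nonneg (not_lt.1 hb)]
    · linarith [not_lt.1 ha]
    · exact phN_mono (not_lt.1 ha) hab
  have hsurj : Function.Surjective fun s : ℝ => if s < 0 then s else phN s := by
    intro y
    by_cases hy : y < 0
    · exact ⟨y, if_pos hy⟩
    · exact ⟨thermalS y, by simp [not_lt.2 (thermalS_nonneg (not_lt.1 hy)), phN_thermalS (not_lt.1 hy)]⟩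
  refine ((hmono.continuous_of_surjective hsurj).continuousOn).congr fun s hs => ?_
  exact (if_neg (not_lt.2 (mem_Ici.1 hs))).symm

theorem hasDerivAt_phN {s : ℝ} (hs : 0 < s) : HasDerivAt phN (LL (phN s))⁻¹ s :=
  (hasDerivAt_thermalS (phN_pos hs)).of_local_left_inverse
    (continuousOn_phN.continuousAt (Ici_mem_nhds hs)) (LL_pos (phN_pos hs)).ne'
    ((eventually_gt_nhds hs).mono fun _y hy => thermalS_phN hy.le)

theorem LL_eq {x : ℝ} (hx : 0 < x) : LL x = log (1 + 1 / x) := by
  unfold LL; rw [← log_div (by linarith) hx.ne']; congr 1; field_simp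

theorem LL_lower {x : ℝ} (hx : 0 < x) : 2 ≤ (2 * x + 1) * LL x := by
  rw [LL_eq hx]
  have h := (lt_log_one_add_of_pos (one_div_pos.2 hx)).le
  have e : 2 * (1 / x) / (1 / x + 2) = 2 / (2 * x + 1) := by field_simp; ring
  rw [e, div_le_iff₀ (by linarith)] at h
  linarith

theorem LL_upper {x : ℝ} (hx : 0 < x) : 2 * LL x ≤ (2 * x + 1) / (x * (x + 1)) := by
  have ht : 1 ≤ (x + 1) / x := by rw [le_div_iff₀ hx]; linarith
  have h := self_le_sinh_iff.2 (log_nonneg ht)
  rw [sinh_log (by positivity)] at h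
  have e : LL x = log ((x + 1) / x) := by
    unfold LL; rw [← log_div (by linarith) hx.ne']
  have e2 : (x + 1) / x - ((x + 1) / x)⁻¹ = (2 * x + 1) / (x * (x + 1)) := by field_simp; ring
  rw [e2] at h
  rw [e]; linarith

theorem continuous_RR : Continuous RR := by
  have : RR = fun x => x * ((x + 1) * log (x + 1)) - (x + 1) * (x * log x) := by
    funext x; unfold RR LL; ring
  rw [this]
  exact (continuous_id.mul ((continuous_mul_log).comp (continuous_id.add continuous_const))).sub
    ((continuous_id.add continuous_const).mul continuous_mul_log)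

theorem hasDerivAt_RR {x : ℝ} (hx : 0 < x) : HasDerivAt RR ((2 * x + 1) * LL x - 1) x := by
  have h := (((hasDerivAt_id' x).mul ((hasDerivAt_id' x).add_const (1 : ℝ))).mul (hasDerivAt_LL hx))
  exact h.congr_deriv (by have : x + 1 ≠ 0 := by linarith
                          simp only [Pi.mul_apply]
                          field_simp; ring)

theorem concaveOn_RR : ConcaveOn ℝ (Ici 0) RR := by
  refine concaveOn_of_hasDerivWithinAt2_nonpos (convex_Ici 0) continuous_RR.continuousOn
    (f' := fun x => (2 * x + 1) * LL x - 1) (f'' := fun x => 2 * LL x - (2 * x + 1) / (x * (x + 1)))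
    ?_ ?_ ?_
  · intro x hx; rw [interior_Ici] at hx
    exact (hasDerivAt_RR hx).hasDerivWithinAt
  · intro x hx; rw [interior_Ici] at hx
    have hx' : 0 < x := hx
    have h := ((((hasDerivAt_id' x).const_mul (2 : ℝ)).add_const (1 : ℝ)).mul (hasDerivAt_LL hx')).sub_const (1 : ℝ)
    exact (h.congr_deriv (by have : x + 1 ≠ 0 := by linarith
                             field_simp; ring)).hasDerivWithinAt
  · intro x hx; rw [interior_Ici] at hx
    linarith [LL_upper (show 0 < x from hx)]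

theorem RR_nonneg {x : ℝ} (hx : 0 ≤ x) : 0 ≤ RR x := by
  rcases hx.lt_or_eq with h | h
  · exact (mul_pos (mul_pos h (by linarith)) (LL_pos h)).le
  · simp [RR, ← h]

theorem RR_pos {x : ℝ} (hx : 0 < x) : 0 < RR x := mul_pos (mul_pos hx (by linarith)) (LL_pos hx)

theorem monotone_TT {a b : ℝ} (ha : 0 < a) (hab : a ≤ b) :
    a * (a + 1) * LL a ^ 2 ≤ b * (b + 1) * LL b ^ 2 := by
  have hmono : MonotoneOn (fun x => RR x * LL x) (Ioi 0) := by
    have hd : ∀ x : ℝ, 0 < x → HasDerivAt (fun x => RR x * LL x) (LL x * ((2 * x + 1) * LL x - 2)) x := by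
      intro x hx
      exact ((hasDerivAt_RR hx).mul (hasDerivAt_LL hx)).congr_deriv (by
        have : x + 1 ≠ 0 := by linarith
        unfold RR; field_simp; ring)
    refine monotoneOn_of_deriv_nonneg (convex_Ioi 0)
      (fun x hx => (hd x hx).continuousAt.continuousWithinAt)
      (fun x hx => (hd x (interior_subset hx)).differentiableAt.differentiableWithinAt) fun x hx => ?_
    rw [interior_Ioi] at hx
    rw [(hd x hx).deriv]
    exact mul_nonneg (LL_pos hx).le (by linarith [LL_lower (show 0 < x from hx)])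
  have := hmono (mem_Ioi.2 ha) (mem_Ioi.2 (ha.trans_le hab)) hab
  simp only [RR] at this
  linarith [this, sq (LL a), sq (LL b)]

theorem neg_log_ge {x : ℝ} (h0 : 0 < x) (h1 : x ≤ 1) : (1 - x) + (1 - x) ^ 2 / 2 ≤ -log x := by
  have h := hasSum_pow_div_log_of_abs_lt_one (show |1 - x| < 1 by rw [abs_of_nonneg] <;> linarith)
  have h2 := sum_le_hasSum (Finset.range 2) (fun i _ => div_nonneg (pow_nonneg (by linarith) _) (by positivity)) h
  simp [Finset.sum_range_succ] at h2
  norm_num at h2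
  linarith

/-- The key comparison `g (p (1-p)) ≤ h p`. -/
theorem thermalS_mul_le {p : ℝ} (h0 : 0 < p) (h1 : p < 1) :
    thermalS (p * (1 - p)) ≤ binEntropy p := by
  have hq : 0 < 1 - p := by linarith
  have hv : 0 < p * (1 - p) := mul_pos h0 hq
  have a := neg_log_ge h0 h1.le
  have b := neg_log_ge hq (by linarith)
  have c := log_le_sub_one_of_pos (show 0 < p * (1 - p) + 1 by linarith)
  rw [binEntropy_eq_negMulLog_add_negMulLog_one_sub]
  simp only [negMulLog, thermalS]
  rw [log_mul h0.ne' hq.ne']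
  have a' := mul_le_mul_of_nonneg_left a (sq_nonneg p)
  have b' := mul_le_mul_of_nonneg_left b (sq_nonneg (1 - p))
  have c' := mul_le_mul_of_nonneg_left c (show 0 ≤ p * (1 - p) + 1 by linarith)
  nlinarith

/-- The photon number of a two-point distribution is concave. -/
theorem concaveOn_phN_binEntropy : ConcaveOn ℝ (Icc 0 1) fun p => phN (binEntropy p) := by
  have hb : ∀ p ∈ Ioo (0 : ℝ) 1, 0 < binEntropy p := fun p hp => binEntropy_pos hp.1 hp.2
  refine concaveOn_of_hasDerivWithinAt2_nonpos (convex_Icc 0 1)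
    (continuousOn_phN.comp binEntropy_continuous.continuousOn fun p hp => binEntropy_nonneg hp.1 hp.2)
    (f' := fun p => (log (1 - p) - log p) / LL (phN (binEntropy p)))
    (f'' := fun p => (-(1 / (p * (1 - p))) * LL (phN (binEntropy p)) -
      (log (1 - p) - log p) * (-(1 / (phN (binEntropy p) * (phN (binEntropy p) + 1))) *
        ((log (1 - p) - log p) / LL (phN (binEntropy p))))) / LL (phN (binEntropy p)) ^ 2) ?_ ?_ ?_
  · intro p hp; rw [interior_Icc] at hp
    have h := (hasDerivAt_phN (hb p hp)).comp p (hasDerivAt_binEntropy hp.1.ne' hp.2.ne)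
    exact (h.congr_deriv (by rw [inv_mul_eq_div])).hasDerivWithinAt
  · intro p hp; rw [interior_Icc] at hp
    have h := (hasDerivAt_phN (hb p hp)).comp p (hasDerivAt_binEntropy hp.1.ne' hp.2.ne)
    have hN := phN_pos (hb p hp)
    have hL := (hasDerivAt_LL hN).comp p h
    have hnum := ((((hasDerivAt_id' p).const_sub (1 : ℝ)).log (by linarith [hp.2] : (1 : ℝ) - p ≠ 0)).sub (hasDerivAt_log hp.1.ne'))
    have hall := hnum.div hL (show (LL ∘ phN ∘ binEntropy) p ≠ 0 from (LL_pos hN).ne')
    refine (hall.congr_deriv ?_).hasDerivWithinAt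
    have e : (-1 : ℝ) / (1 - p) - p⁻¹ = -(1 / (p * (1 - p))) := by
      have : 1 - p ≠ 0 := by linarith [hp.2]
      have := hp.1.ne'
      field_simp; ring
    simp only [Function.comp_apply, Pi.sub_apply]
    rw [e]; ring
  · intro p hp; rw [interior_Icc] at hp
    obtain ⟨h0, h1⟩ := hp
    have hq : 0 < 1 - p := by linarith
    have hv : 0 < p * (1 - p) := mul_pos h0 hq
    set u := phN (binEntropy p) with hu_def
    have hu : 0 < u := phN_pos (hb p ⟨h0, h1⟩)
    have hvu : p * (1 - p) ≤ u := by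
      have := phN_mono (thermalS_nonneg hv.le) (thermalS_mul_le h0 h1)
      rwa [phN_thermalS hv.le] at this
    have hT := monotone_TT hv hvu
    have hlog : (log (1 - p) - log p) ^ 2 ≤ LL (p * (1 - p)) ^ 2 := by
      have e : LL (p * (1 - p)) = log (p * (1 - p) + 1) - log p - log (1 - p) := by
        rw [LL, log_mul h0.ne' hq.ne']; ring
      have l1 := log_nonpos h0.le h1.le
      have l2 := log_nonpos hq.le (by linarith)
      have l3 := log_nonneg (show 1 ≤ p * (1 - p) + 1 by linarith)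
      rw [sq_le_sq, e, abs_le, abs_of_nonneg (by linarith)]
      constructor <;> linarith
    have key : (log (1 - p) - log p) ^ 2 * (p * (1 - p)) ≤ u * (u + 1) * LL u ^ 2 := by
      have h2 := mul_le_mul_of_nonneg_right hlog hv.le
      have h3 : p * (1 - p) ≤ p * (1 - p) * (p * (1 - p) + 1) := by nlinarith
      have h4 := mul_le_mul_of_nonneg_left h3 (sq_nonneg (LL (p * (1 - p))))
      nlinarith
    refine div_nonpos_of_nonpos_of_nonneg ?_ (sq_nonneg _)
    have hLu := LL_pos hu
    set Lu := LL u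
    set D := log (1 - p) - log p
    have hu1 : (u + 1) ≠ 0 := by linarith
    have e : -(1 / (p * (1 - p))) * Lu - D * (-(1 / (u * (u + 1))) * (D / Lu))
        = (D ^ 2 * (p * (1 - p)) - u * (u + 1) * Lu ^ 2) / (p * (1 - p) * (u * (u + 1)) * Lu) := by
      have := h0.ne'; have := hq.ne'; have := hu.ne'; have := hLu.ne'
      field_simp; ring
    rw [e]
    exact div_nonpos_of_nonpos_of_nonneg (by linarith) (by positivity)

/-- The lower bound of the conjecture as a function of the two entropies. -/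
noncomputable def GG (η a b : ℝ) : ℝ := thermalS (η * phN a + (1 - η) * phN b)

theorem cauchy_two {x y P Q A B : ℝ} (hP : 0 ≤ P) (hQ : 0 ≤ Q) (hx : x ^ 2 = P * A)
    (hy : y ^ 2 = Q * B) (hA : 0 ≤ A) (hB : 0 ≤ B) : (x + y) ^ 2 ≤ (P + Q) * (A + B) := by
  have h1 : (x * y) ^ 2 = (P * B) * (Q * A) := by rw [mul_pow, hx, hy]; ring
  have h2 : 2 * (x * y) ≤ P * B + Q * A := by
    nlinarith [sq_nonneg (P * B - Q * A), sq_nonneg (2 * (x * y) + P * B + Q * A),
      mul_nonneg hP hB, mul_nonneg hQ hA]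
  nlinarith

theorem seg_data {a₀ a₁ : ℝ} (h0 : 0 ≤ a₀) (h1 : 0 ≤ a₁) {s : ℝ} (hs : s ∈ Ioo (0 : ℝ) 1) :
    let a := fun t : ℝ => a₀ + t * (a₁ - a₀)
    let du := fun t : ℝ => (a₁ - a₀) / LL (phN (a t))
    HasDerivAt (fun t => phN (a t)) (du s) s ∧
      HasDerivAt du (du s ^ 2 / RR (phN (a s))) s ∧
      (du s) ^ 2 = RR (phN (a s)) * (du s ^ 2 / RR (phN (a s))) ∧
      (0 < phN (a s) ∨ a₀ = 0 ∧ a₁ = 0) := by
  intro a du
  have hlin : HasDerivAt a (a₁ - a₀) s := by
    simpa [a] using ((hasDerivAt_id' s).mul_const (a₁ - a₀)).const_add a₀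
  by_cases hz : a₀ = 0 ∧ a₁ = 0
  · obtain ⟨rfl, rfl⟩ := hz
    have ha : (fun t => phN (a t)) = fun _ => (0 : ℝ) := by funext t; simp [a, phN_zero]
    have hdu : du = fun _ => (0 : ℝ) := by funext t; simp [du]
    refine ⟨?_, ?_, by simp [du], Or.inr ⟨rfl, rfl⟩⟩
    · rw [ha, hdu]; exact hasDerivAt_const s 0
    · rw [hdu]; simpa using hasDerivAt_const s (0 : ℝ)
  · have has : 0 < a s := by
      have e : a s = (1 - s) * a₀ + s * a₁ := by simp [a]; ring
      rw [e]
      rcases h0.lt_or_eq with h | h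
      · exact add_pos_of_pos_of_nonneg (mul_pos (by linarith [hs.2]) h) (mul_nonneg hs.1.le h1)
      · rcases h1.lt_or_eq with h' | h'
        · exact add_pos_of_nonneg_of_pos (by rw [← h]; simp) (mul_pos hs.1 h')
        · exact absurd ⟨h.symm, h'.symm⟩ hz
    have hu := phN_pos has
    have d1 := ((hasDerivAt_phN has).comp s hlin)
    have d1' : HasDerivAt (fun t => phN (a t)) (du s) s := by
      refine d1.congr_deriv ?_; simp only [du]; rw [inv_mul_eq_div]
    refine ⟨d1', ?_, ?_, Or.inl hu⟩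
    · have d2 := (hasDerivAt_const s (a₁ - a₀)).div ((hasDerivAt_LL hu).comp s d1')
        (show (LL ∘ fun t => phN (a t)) s ≠ 0 from (LL_pos hu).ne')
      refine d2.congr_deriv ?_
      have := hu.ne'; have := (LL_pos hu).ne'
      have : phN (a s) + 1 ≠ 0 := by linarith
      simp only [du, RR, Function.comp_apply]; field_simp; ring
    · rw [mul_div_cancel₀ _ (RR_pos hu).ne']

theorem convexOn_GG_seg {η a₀ a₁ b₀ b₁ : ℝ} (e0 : 0 ≤ η) (e1 : η ≤ 1) (ha0 : 0 ≤ a₀) (ha1 : 0 ≤ a₁)
    (hb0 : 0 ≤ b₀) (hb1 : 0 ≤ b₁) :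
    ConvexOn ℝ (Icc 0 1) fun t => GG η (a₀ + t * (a₁ - a₀)) (b₀ + t * (b₁ - b₀)) := by
  set a := fun t : ℝ => a₀ + t * (a₁ - a₀)
  set b := fun t : ℝ => b₀ + t * (b₁ - b₀)
  set M := fun t : ℝ => η * phN (a t) + (1 - η) * phN (b t)
  have f0 : 0 ≤ 1 - η := by linarith
  have ha : ∀ t ∈ Icc (0 : ℝ) 1, 0 ≤ a t := fun t ht => by simp only [a]; nlinarith [ht.1, ht.2]
  have hb : ∀ t ∈ Icc (0 : ℝ) 1, 0 ≤ b t := fun t ht => by simp only [b]; nlinarith [ht.1, ht.2]
  by_cases hdeg : (η = 0 ∨ a₀ = 0 ∧ a₁ = 0) ∧ (1 - η = 0 ∨ b₀ = 0 ∧ b₁ = 0)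
  · have : ∀ t, GG η (a₀ + t * (a₁ - a₀)) (b₀ + t * (b₁ - b₀)) = 0 := by
      intro t
      rcases hdeg with ⟨(h | ⟨rfl, rfl⟩), (h' | ⟨rfl, rfl⟩)⟩
      · exact absurd h' (by rw [h]; norm_num)
      all_goals
        simp [GG, phN_zero, thermalS_zero, *]
    simp only [this]
    exact convexOn_const _ (convex_Icc 0 1)
  have hM : ∀ s ∈ Ioo (0 : ℝ) 1, 0 < M s := by
    intro s hs
    have hN1 := phN_nonneg (ha s (Ioo_subset_Icc_self hs))
    have hN2 := phN_nonneg (hb s (Ioo_subset_Icc_self hs))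
    by_contra hcon
    have hz1 : η * phN (a s) = 0 := by
      have := mul_nonneg e0 hN1; have := mul_nonneg f0 hN2; simp only [M] at hcon; linarith
    have hz2 : (1 - η) * phN (b s) = 0 := by
      have := mul_nonneg e0 hN1; have := mul_nonneg f0 hN2; simp only [M] at hcon; linarith
    refine hdeg ⟨?_, ?_⟩
    · rcases mul_eq_zero.1 hz1 with h | h
      · exact Or.inl h
      · exact Or.inr ((seg_data ha0 ha1 hs).2.2.2.resolve_left (by intro h'; exact h'.ne' h))
    · rcases mul_eq_zero.1 hz2 with h | h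
      · exact Or.inl h
      · exact Or.inr ((seg_data hb0 hb1 hs).2.2.2.resolve_left (by intro h'; exact h'.ne' h))
  set dM := fun t : ℝ => η * ((a₁ - a₀) / LL (phN (a t))) + (1 - η) * ((b₁ - b₀) / LL (phN (b t)))
  have dMat : ∀ s ∈ Ioo (0 : ℝ) 1, HasDerivAt M (dM s) s := fun s hs =>
    ((seg_data ha0 ha1 hs).1.const_mul η).add ((seg_data hb0 hb1 hs).1.const_mul (1 - η))
  refine convexOn_of_hasDerivWithinAt2_nonneg (convex_Icc 0 1) ?_
    (f' := fun t => LL (M t) * dM t)
    (f'' := fun t => -(1 / (M t * (M t + 1))) * dM t * dM t + LL (M t) *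
      (η * (((a₁ - a₀) / LL (phN (a t))) ^ 2 / RR (phN (a t))) +
        (1 - η) * (((b₁ - b₀) / LL (phN (b t))) ^ 2 / RR (phN (b t))))) ?_ ?_ ?_
  · unfold GG
    refine continuous_thermalS.comp_continuousOn ?_
    exact ((continuousOn_phN.comp (by fun_prop) ha).const_mul η).add
      ((continuousOn_phN.comp (by fun_prop) hb).const_mul (1 - η))
  · intro s hs; rw [interior_Icc] at hs
    exact ((hasDerivAt_thermalS (hM s hs)).comp s (dMat s hs)).hasDerivWithinAt
  · intro s hs; rw [interior_Icc] at hs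
    have dd : HasDerivAt dM (η * (((a₁ - a₀) / LL (phN (a s))) ^ 2 / RR (phN (a s))) +
        (1 - η) * (((b₁ - b₀) / LL (phN (b s))) ^ 2 / RR (phN (b s)))) s :=
      ((seg_data ha0 ha1 hs).2.1.const_mul η).add ((seg_data hb0 hb1 hs).2.1.const_mul (1 - η))
    exact (((hasDerivAt_LL (hM s hs)).comp s (dMat s hs)).mul dd).hasDerivWithinAt
  · intro s hs; rw [interior_Icc] at hs
    have hu := phN_nonneg (ha s (Ioo_subset_Icc_self hs))
    have hv := phN_nonneg (hb s (Ioo_subset_Icc_self hs))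
    have qa := (seg_data ha0 ha1 hs).2.2.1
    have qb := (seg_data hb0 hb1 hs).2.2.1
    simp only at qa qb
    set du := (a₁ - a₀) / LL (phN (a s)) with hdu
    set dv := (b₁ - b₀) / LL (phN (b s)) with hdv
    set A := du ^ 2 / RR (phN (a s))
    set B := dv ^ 2 / RR (phN (b s))
    have hRa := RR_nonneg hu
    have hRb := RR_nonneg hv
    have hA : 0 ≤ A := div_nonneg (sq_nonneg _) hRa
    have hB : 0 ≤ B := div_nonneg (sq_nonneg _) hRb
    have hconc : η * RR (phN (a s)) + (1 - η) * RR (phN (b s)) ≤ RR (M s) :=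
      concaveOn_RR.2 hu hv e0 f0 (by ring)
    have hcs := cauchy_two (x := η * du) (y := (1 - η) * dv) (mul_nonneg e0 hRa) (mul_nonneg f0 hRb)
      (A := η * A) (B := (1 - η) * B) (by rw [mul_pow, qa]; ring) (by rw [mul_pow, qb]; ring)
      (mul_nonneg e0 hA) (mul_nonneg f0 hB)
    have hle : dM s ^ 2 ≤ RR (M s) * (η * A + (1 - η) * B) :=
      hcs.trans (mul_le_mul_of_nonneg_right hconc
        (add_nonneg (mul_nonneg e0 hA) (mul_nonneg f0 hB)))
    have hm := hM s hs
    have e : -(1 / (M s * (M s + 1))) * dM s * dM s + LL (M s) * (η * A + (1 - η) * B)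
        = (RR (M s) * (η * A + (1 - η) * B) - dM s ^ 2) / (M s * (M s + 1)) := by
      unfold RR; field_simp; ring
    rw [e]
    exact div_nonneg (by linarith) (by positivity)

theorem convexOn_GG {η : ℝ} (e0 : 0 ≤ η) (e1 : η ≤ 1) :
    ConvexOn ℝ (Ici (0 : ℝ) ×ˢ Ici (0 : ℝ)) fun z : ℝ × ℝ => GG η z.1 z.2 := by
  refine ⟨(convex_Ici 0).prod (convex_Ici 0), ?_⟩
  rintro ⟨a₀, b₀⟩ ⟨ha0, hb0⟩ ⟨a₁, b₁⟩ ⟨ha1, hb1⟩ x y hx hy hxy
  have h := (convexOn_GG_seg e0 e1 (mem_Ici.1 ha0) (mem_Ici.1 ha1) (mem_Ici.1 hb0) (mem_Ici.1 hb1)).2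
    (left_mem_Icc.2 zero_le_one) (right_mem_Icc.2 zero_le_one) hx hy hxy
  have hy' : x = 1 - y := by linarith
  subst hy'
  simp only [smul_eq_mul, mul_zero, zero_add, mul_one, zero_mul, add_zero, one_mul,
    add_sub_cancel, Prod.smul_mk, Prod.mk_add_mk] at h ⊢
  convert h using 2 <;> ring

end Vale.Agent.P369
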