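import Vale.Agent.P369.Basic

/-!
The classical channel induced by a beam splitter on modes with at most one photon in each input,
and its entropy inequality for correlated distributions, by induction on the number of modes.
-/

namespace Vale.Agent.P369

open Real Finset

/-- Entropy of a finite distribution. -/
noncomputable def HH {α : Type} [Fintype α] (f : α → ℝ) : ℝ := ∑ a, negMulLog (f a)

/-- A probability distribution. -/
def IsDist {α : Type} [Fintype α] (f : α → ℝ) : Prop := (∀ a, 0 ≤ f a) ∧ ∑ a, f a = 1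

/-- The probabilities of the photon numbers in the first output mode. -/
def ker (η : ℝ) (x y : Fin 2) : Fin 3 → ℝ :=
  if x = 0 then (if y = 0 then ![1, 0, 0] else ![η, 1 - η, 0])
  else (if y = 0 then ![1 - η, η, 0] else ![2 * η * (1 - η), (2 * η - 1) ^ 2, 2 * η * (1 - η)])

theorem isDist_ker {η : ℝ} (e0 : 0 ≤ η) (e1 : η ≤ 1) (x y : Fin 2) : IsDist (ker η x y) := by
  have : 0 ≤ 1 - η := by linarith
  refine ⟨fun c => ?_, ?_⟩
  · fin_cases x <;> fin_cases y <;> fin_cases c <;> simp [ker] <;> first | assumption | linarith | positivity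
  · fin_cases x <;> fin_cases y <;> simp [ker, Fin.sum_univ_three] <;> ring

theorem IsDist.le_one {α : Type} [Fintype α] {f : α → ℝ} (h : IsDist f) (a : α) : f a ≤ 1 :=
  h.2 ▸ Finset.single_le_sum (fun b _ => h.1 b) (mem_univ a)

theorem HH_nonneg {α : Type} [Fintype α] {f : α → ℝ} (h : IsDist f) : 0 ≤ HH f :=
  sum_nonneg fun a _ => negMulLog_nonneg (h.1 a) (h.le_one a)

/-- The output distribution. -/
noncomputable def outB (η : ℝ) {n : ℕ} (p q : (Fin n → Fin 2) → ℝ) (z : Fin n → Fin 3) : ℝ :=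
  ∑ x, ∑ y, p x * q y * ∏ m, ker η (x m) (y m) (z m)

theorem isDist_outB {η : ℝ} (e0 : 0 ≤ η) (e1 : η ≤ 1) {n : ℕ} {p q : (Fin n → Fin 2) → ℝ}
    (hp : IsDist p) (hq : IsDist q) : IsDist (outB η p q) := by
  refine ⟨fun z => sum_nonneg fun x _ => sum_nonneg fun y _ => mul_nonneg (mul_nonneg (hp.1 x) (hq.1 y))
    (prod_nonneg fun m _ => (isDist_ker e0 e1 _ _).1 _), ?_⟩
  have key : ∀ x y : Fin n → Fin 2, ∑ z : Fin n → Fin 3, ∏ m, ker η (x m) (y m) (z m) = 1 := by
    intro x y
    rw [← Fintype.prod_sum]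
    exact prod_eq_one fun m _ => (isDist_ker e0 e1 _ _).2
  unfold outB
  rw [sum_comm]
  calc ∑ x, ∑ z : Fin n → Fin 3, ∑ y, p x * q y * ∏ m, ker η (x m) (y m) (z m)
      = ∑ x, ∑ y, p x * q y := sum_congr rfl fun x _ => by
        rw [sum_comm]; refine sum_congr rfl fun y _ => ?_
        rw [← mul_sum, key, mul_one]
    _ = 1 := by simp [← mul_sum, hq.2, hp.2]

theorem HH_two {f : Fin 2 → ℝ} (h : IsDist f) : HH f = binEntropy (f 1) := by
  have h0 : f 0 = 1 - f 1 := by have := h.2; rw [Fin.sum_univ_two] at this; linarith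
  rw [binEntropy_eq_negMulLog_add_negMulLog_one_sub, HH, Fin.sum_univ_two, h0]; ring

theorem entropy_three {m t : ℝ} (m0 : 0 ≤ m) (m1 : m ≤ 1) (t0 : 0 ≤ t) (t1 : t ≤ m ^ 2 / 2) :
    binEntropy m ≤ negMulLog (1 - m + t) + negMulLog (m - 2 * t) + negMulLog t := by
  have hm : m ^ 2 ≤ m := by nlinarith
  have hend : binEntropy m ≤
      negMulLog (1 - m + m ^ 2 / 2) + negMulLog (m - 2 * (m ^ 2 / 2)) + negMulLog (m ^ 2 / 2) := by
    have e1 : negMulLog (m - 2 * (m ^ 2 / 2)) = (1 - m) * negMulLog m + m * negMulLog (1 - m) := by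
      rw [show m - 2 * (m ^ 2 / 2) = m * (1 - m) by ring, negMulLog_mul]
    have e2 : negMulLog (m ^ 2 / 2) = m * negMulLog m + m ^ 2 / 2 * log 2 := by
      rw [show m ^ 2 / 2 = m * m * 2⁻¹ by ring, negMulLog_mul, negMulLog_mul]
      rw [negMulLog, negMulLog, log_inv]; ring
    have e3 : negMulLog ((1 - m) ^ 2) = 2 * (1 - m) * negMulLog (1 - m) := by
      rw [sq, negMulLog_mul]; ring
    have h := concaveOn_negMulLog.2 (Set.mem_Ici.2 zero_le_one) (Set.mem_Ici.2 (sq_nonneg (1 - m)))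
      (show (0 : ℝ) ≤ 1 / 2 by norm_num) (show (0 : ℝ) ≤ 1 / 2 by norm_num) (by norm_num)
    simp only [smul_eq_mul, negMulLog_one, mul_zero, zero_add] at h
    rw [show (1 : ℝ) / 2 * 1 + 1 / 2 * (1 - m) ^ 2 = 1 - m + m ^ 2 / 2 by ring, e3] at h
    rw [binEntropy_eq_negMulLog_add_negMulLog_one_sub, e1, e2]
    have : 0 ≤ m ^ 2 / 2 * log 2 := mul_nonneg (by positivity) (log_nonneg (by norm_num))
    linarith
  rcases (sq_nonneg m).lt_or_eq with hpos | hz
  · set s := t / (m ^ 2 / 2)
    have s0 : 0 ≤ s := div_nonneg t0 (by positivity)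
    have s1 : s ≤ 1 := by rw [div_le_one (by positivity)]; exact t1
    have ts : t = s * (m ^ 2 / 2) := (div_mul_cancel₀ t (by positivity : m ^ 2 / 2 ≠ 0)).symm
    have c : ∀ A B : ℝ, 0 ≤ A → 0 ≤ B → (1 - s) * negMulLog A + s * negMulLog B ≤
        negMulLog ((1 - s) * A + s * B) := fun A B hA hB => by
      simpa using concaveOn_negMulLog.2 (Set.mem_Ici.2 hA) (Set.mem_Ici.2 hB)
        (by linarith : 0 ≤ 1 - s) s0 (by ring)
    have cA := c (1 - m) (1 - m + m ^ 2 / 2) (by linarith) (by nlinarith)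
    have cB := c m (m - 2 * (m ^ 2 / 2)) m0 (by linarith)
    have cC := c 0 (m ^ 2 / 2) le_rfl (by positivity)
    rw [show (1 - s) * (1 - m) + s * (1 - m + m ^ 2 / 2) = 1 - m + t by rw [ts]; ring] at cA
    rw [show (1 - s) * m + s * (m - 2 * (m ^ 2 / 2)) = m - 2 * t by rw [ts]; ring] at cB
    rw [show (1 - s) * 0 + s * (m ^ 2 / 2) = t by rw [ts]; ring, negMulLog_zero] at cC
    have := mul_le_mul_of_nonneg_left hend s0
    rw [binEntropy_eq_negMulLog_add_negMulLog_one_sub] at this ⊢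
    nlinarith
  · have hm0 : m = 0 := sq_eq_zero_iff.1 hz.symm
    subst hm0
    have : t = 0 := by norm_num at t1; linarith
    subst this
    simp

/-- One mode. -/
theorem one_mode {η : ℝ} (e0 : 0 ≤ η) (e1 : η ≤ 1) {p q : Fin 2 → ℝ} (hp : IsDist p) (hq : IsDist q) :
    GG η (HH p) (HH q) ≤ HH (fun c => ∑ x, ∑ y, p x * q y * ker η x y c) := by
  have f0 : 0 ≤ 1 - η := by linarith
  set a := p 1
  set b := q 1
  have a0 := hp.1 1
  have b0 := hq.1 1
  have a1 : a ≤ 1 := hp.le_one 1
  have b1 : b ≤ 1 := hq.le_one 1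
  have pa : p 0 = 1 - a := by have := hp.2; rw [Fin.sum_univ_two] at this; linarith
  have qb : q 0 = 1 - b := by have := hq.2; rw [Fin.sum_univ_two] at this; linarith
  set m := η * a + (1 - η) * b
  have m0 : 0 ≤ m := add_nonneg (mul_nonneg e0 a0) (mul_nonneg f0 b0)
  have m1 : m ≤ 1 := by simp only [m]; nlinarith
  set t := a * b * (2 * η * (1 - η))
  have t0 : 0 ≤ t := by positivity
  have t1 : t ≤ m ^ 2 / 2 := by simp only [t, m]; nlinarith [sq_nonneg (η * a - (1 - η) * b)]
  have hH : HH (fun c => ∑ x, ∑ y, p x * q y * ker η x y c) =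
      negMulLog (1 - m + t) + negMulLog (m - 2 * t) + negMulLog t := by
    simp only [HH, Fin.sum_univ_three, Fin.sum_univ_two, ker, Fin.isValue, pa, qb, m, t]
    simp only [if_pos, Fin.reduceEq, if_false, Matrix.cons_val_zero, Matrix.cons_val_one,
      Matrix.cons_val_two, Matrix.tail_cons, Matrix.head_cons]
    simp only [show q 1 = b from rfl, show p 1 = a from rfl]
    ring_nf
  rw [hH, HH_two hp, HH_two hq]
  refine le_trans ?_ (entropy_three m0 m1 t0 t1)
  have hc := concaveOn_phN_binEntropy.2 ⟨a0, a1⟩ ⟨b0, b1⟩ e0 f0 (by ring)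
  simp only [smul_eq_mul] at hc
  have hm := binEntropy_nonneg m0 m1
  have h2 : GG η (binEntropy a) (binEntropy b) ≤ thermalS (phN (binEntropy m)) :=
    strictMonoOn_thermalS.monotoneOn
      (Set.mem_Ici.2 (add_nonneg (mul_nonneg e0 (phN_nonneg (binEntropy_nonneg a0 a1)))
        (mul_nonneg f0 (phN_nonneg (binEntropy_nonneg b0 b1)))))
      (Set.mem_Ici.2 (phN_nonneg hm)) hc
  rwa [thermalS_phN hm] at h2

theorem sum_cons {α : Type} [Fintype α] {n : ℕ} (f : (Fin (n + 1) → α) → ℝ) :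
    ∑ z, f z = ∑ a, ∑ r : Fin n → α, f (Fin.cons a r) := by
  rw [← (Fin.consEquiv fun _ : Fin (n + 1) => α).sum_comp f, Fintype.sum_prod_type]
  rfl

/-- Marginal of the first coordinate. -/
def head {α : Type} [Fintype α] {n : ℕ} (p : (Fin (n + 1) → α) → ℝ) (a : α) : ℝ :=
  ∑ r : Fin n → α, p (Fin.cons a r)

/-- Conditional distribution of the other coordinates. -/
noncomputable def rest {n : ℕ} (p : (Fin (n + 1) → Fin 2) → ℝ) (a : Fin 2) (r : Fin n → Fin 2) : ℝ :=
  if head p a = 0 then (if r = 0 then 1 else 0) else p (Fin.cons a r) / head p a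

theorem head_mul_rest {n : ℕ} {p : (Fin (n + 1) → Fin 2) → ℝ} (hp : IsDist p) (a : Fin 2) (r : Fin n → Fin 2) :
    p (Fin.cons a r) = head p a * rest p a r := by
  unfold rest
  split_ifs with h h'
  · rw [h, zero_mul]
    exact (sum_eq_zero_iff_of_nonneg fun r _ => hp.1 _).1 h r (mem_univ r)
  · rw [h, zero_mul]
    exact (sum_eq_zero_iff_of_nonneg fun r _ => hp.1 _).1 h r (mem_univ r)
  · field_simp

theorem isDist_head {n : ℕ} {p : (Fin (n + 1) → Fin 2) → ℝ} (hp : IsDist p) : IsDist (head p) :=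
  ⟨fun _ => sum_nonneg fun _ _ => hp.1 _, by rw [← hp.2, sum_cons p]; rfl⟩

theorem isDist_rest {n : ℕ} {p : (Fin (n + 1) → Fin 2) → ℝ} (hp : IsDist p) (a : Fin 2) : IsDist (rest p a) := by
  unfold rest
  by_cases h : head p a = 0
  · simp only [if_pos h]
    exact ⟨fun r => by dsimp only; split_ifs <;> norm_num, by simp⟩
  · simp only [if_neg h]
    exact ⟨fun r => div_nonneg (hp.1 _) ((isDist_head hp).1 a), by
      rw [← sum_div]; exact div_self h⟩

theorem HH_chain {n : ℕ} {p : (Fin (n + 1) → Fin 2) → ℝ} (hp : IsDist p) :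
    HH p = HH (head p) + ∑ a, head p a * HH (rest p a) := by
  simp only [HH]
  rw [sum_cons, ← sum_add_distrib]
  refine sum_congr rfl fun a _ => ?_
  simp only [head_mul_rest hp a, negMulLog_mul, sum_add_distrib]
  rw [← sum_mul, (isDist_rest hp a).2, one_mul, ← mul_sum]

theorem mix_entropy {ι β γ : Type} [Fintype ι] [Fintype β] [Fintype γ] {w : ι → ℝ} {K : ι → β → ℝ}
    {O : ι → γ → ℝ} (hw : ∀ i, 0 ≤ w i) (hK : ∀ i, IsDist (K i)) (hO : ∀ i, IsDist (O i)) :
    HH (fun b => ∑ i, w i * K i b) + ∑ i, w i * HH (O i) ≤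
      ∑ b, ∑ c, negMulLog (∑ i, w i * K i b * O i c) := by
  have step : ∀ b, negMulLog (∑ i, w i * K i b) + ∑ i, w i * K i b * HH (O i) ≤
      ∑ c, negMulLog (∑ i, w i * K i b * O i c) := by
    intro b
    have ha : ∀ i, 0 ≤ w i * K i b := fun i => mul_nonneg (hw i) ((hK i).1 b)
    set A := ∑ i, w i * K i b with hA
    rcases (sum_nonneg fun i _ => ha i : 0 ≤ A).lt_or_eq with hpos | hz
    · have hAne : A ≠ 0 := hpos.ne'
      have key : ∀ c, (∑ i, w i * K i b / A * O i c) * negMulLog A + ∑ i, w i * K i b * negMulLog (O i c) ≤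
          negMulLog (∑ i, w i * K i b * O i c) := by
        intro c
        have e : ∑ i, w i * K i b * O i c = A * ∑ i, w i * K i b / A * O i c := by
          rw [mul_sum]; refine sum_congr rfl fun i _ => ?_
          rw [← mul_assoc, mul_div_cancel₀ _ hAne]
        rw [e, negMulLog_mul]
        refine add_le_add le_rfl ?_
        have h := concaveOn_negMulLog.le_map_sum (t := univ) (w := fun i => w i * K i b / A)
          (p := fun i => O i c) (fun i _ => div_nonneg (ha i) hpos.le)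
          (by rw [← sum_div]; exact div_self hpos.ne') (fun i _ => Set.mem_Ici.2 ((hO i).1 c))
        simp only [smul_eq_mul] at h
        have h' := mul_le_mul_of_nonneg_left h hpos.le
        refine le_trans (le_of_eq ?_) h'
        rw [← hA, mul_sum]; refine sum_congr rfl fun i _ => ?_
        rw [← mul_assoc, mul_div_cancel₀ _ hAne]
      refine le_trans (le_of_eq ?_) (sum_le_sum fun c _ => key c)
      rw [sum_add_distrib, ← sum_mul, sum_comm]
      simp_rw [← mul_sum, (hO _).2, mul_one, ← sum_div]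
      rw [← hA, div_self hpos.ne', one_mul, sum_comm]
      simp_rw [HH, mul_sum]
    · have h0 : ∀ i, w i * K i b = 0 := fun i =>
        (sum_eq_zero_iff_of_nonneg fun i _ => ha i).1 hz.symm i (mem_univ i)
      have hA0 : A = 0 := hz.symm
      simp [hA0, h0]
  refine le_trans (le_of_eq ?_) (sum_le_sum fun b _ => step b)
  rw [sum_add_distrib, sum_comm (s := (univ : Finset β))]
  congr 1
  refine sum_congr rfl fun i _ => ?_
  rw [← sum_mul, ← mul_sum, (hK i).2, mul_one]

/-- All numbers of modes. -/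
theorem main_classical {η : ℝ} (e0 : 0 ≤ η) (e1 : η ≤ 1) : ∀ (n : ℕ) {p q : (Fin n → Fin 2) → ℝ},
    IsDist p → IsDist q → (n : ℝ) * GG η (HH p / n) (HH q / n) ≤ HH (outB η p q) := by
  intro n
  induction n with
  | zero =>
    intro p q hp hq
    simp only [Nat.cast_zero, zero_mul]
    exact HH_nonneg (isDist_outB e0 e1 hp hq)
  | succ n ih =>
    intro p q hp hq
    have hP := isDist_head hp
    have hQ := isDist_head hq
    set w := fun i : Fin 2 × Fin 2 => head p i.1 * head q i.2 with hw_def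
    have hw : ∀ i, 0 ≤ w i := fun i => mul_nonneg (hP.1 _) (hQ.1 _)
    have hw1 : ∑ i, w i = 1 := by
      simp only [w, Fintype.sum_prod_type, ← mul_sum, hQ.2, mul_one, hP.2]
    have hout : HH (outB η p q) = ∑ b, ∑ c, negMulLog
        (∑ i, w i * ker η i.1 i.2 b * outB η (rest p i.1) (rest q i.2) c) := by
      rw [HH, sum_cons]
      refine sum_congr rfl fun b _ => sum_congr rfl fun c _ => ?_
      congr 1
      rw [outB, sum_cons, Fintype.sum_prod_type]
      refine sum_congr rfl fun x _ => ?_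
      simp only [sum_cons (α := Fin 2), Fin.prod_univ_succ, Fin.cons_zero, Fin.cons_succ, outB, w, mul_sum]
      rw [sum_comm]
      refine sum_congr rfl fun y _ => sum_congr rfl fun r _ => sum_congr rfl fun r' _ => ?_
      rw [head_mul_rest hp, head_mul_rest hq]; ring
    have hmix := mix_entropy hw (fun i => isDist_ker e0 e1 i.1 i.2)
      (fun i => isDist_outB e0 e1 (isDist_rest hp i.1) (isDist_rest hq i.2))
    rw [← hout] at hmix
    have hone : GG η (HH (head p)) (HH (head q)) ≤ HH (fun b => ∑ i, w i * ker η i.1 i.2 b) := by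
      simpa [w, Fintype.sum_prod_type] using one_mode e0 e1 hP hQ
    set ā := ∑ a, head p a * HH (rest p a) with hā
    set bb := ∑ a, head q a * HH (rest q a) with hbb
    have ha0 : 0 ≤ ā := sum_nonneg fun a _ => mul_nonneg (hP.1 a) (HH_nonneg (isDist_rest hp a))
    have hb0 : 0 ≤ bb := sum_nonneg fun a _ => mul_nonneg (hQ.1 a) (HH_nonneg (isDist_rest hq a))
    have hj1 : GG η (ā / n) (bb / n) ≤ ∑ i, w i * GG η (HH (rest p i.1) / n) (HH (rest q i.2) / n) := by
      have h := (convexOn_GG e0 e1).map_sum_le (t := univ) (w := w)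
        (p := fun i => (HH (rest p i.1) / (n : ℝ), HH (rest q i.2) / (n : ℝ)))
        (fun i _ => hw i) hw1 (fun i _ => ⟨div_nonneg (HH_nonneg (isDist_rest hp i.1)) (Nat.cast_nonneg n),
          div_nonneg (HH_nonneg (isDist_rest hq i.2)) (Nat.cast_nonneg n)⟩)
      refine le_trans (le_of_eq ?_) h
      congr 1
      · simp only [Prod.fst_sum, Prod.smul_fst, smul_eq_mul, hā, w, Fintype.sum_prod_type, sum_div]
        refine sum_congr rfl fun a _ => ?_
        rw [← sum_mul, ← mul_sum, hQ.2]; ring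
      · simp only [Prod.snd_sum, Prod.smul_snd, smul_eq_mul, hbb, w, Fintype.sum_prod_type, sum_div]
        rw [sum_comm]
        refine sum_congr rfl fun a _ => ?_
        rw [← sum_mul, ← sum_mul, hP.2]; ring
    have hrest : (n : ℝ) * GG η (ā / n) (bb / n) ≤
        ∑ i, w i * HH (outB η (rest p i.1) (rest q i.2)) := by
      refine le_trans (mul_le_mul_of_nonneg_left hj1 (Nat.cast_nonneg n)) ?_
      rw [mul_sum]
      refine sum_le_sum fun i _ => ?_
      rw [mul_left_comm]
      exact mul_le_mul_of_nonneg_left (ih (isDist_rest hp i.1) (isDist_rest hq i.2)) (hw i)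
    have hn : ∀ (f : (Fin (n + 1) → Fin 2) → ℝ), IsDist f →
        (n : ℝ) * ((∑ a, head f a * HH (rest f a)) / n) = ∑ a, head f a * HH (rest f a) := by
      intro f hf
      rcases Nat.eq_zero_or_pos n with rfl | hn
      · simp only [Nat.cast_zero, zero_mul]
        refine (sum_eq_zero fun a _ => ?_).symm
        have := (isDist_rest hf a).2
        rw [Fintype.sum_unique] at this
        simp [HH, this]
      · field_simp
    have hcv := (convexOn_GG e0 e1).2
      (show (HH (head p), HH (head q)) ∈ Set.Ici (0 : ℝ) ×ˢ Set.Ici (0 : ℝ) from ⟨HH_nonneg hP, HH_nonneg hQ⟩)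
      (show (ā / n, bb / n) ∈ Set.Ici (0 : ℝ) ×ˢ Set.Ici (0 : ℝ) from
        ⟨div_nonneg ha0 (Nat.cast_nonneg n), div_nonneg hb0 (Nat.cast_nonneg n)⟩)
      (show 0 ≤ 1 / ((n : ℝ) + 1) by positivity) (show 0 ≤ (n : ℝ) / ((n : ℝ) + 1) by positivity)
      (by field_simp; ring)
    simp only [Prod.smul_mk, Prod.mk_add_mk, smul_eq_mul] at hcv
    have e1' : 1 / ((n : ℝ) + 1) * HH (head p) + (n : ℝ) / ((n : ℝ) + 1) * (ā / n) = HH p / ((n : ℝ) + 1) := by
      rw [HH_chain hp, ← hā, add_div, div_mul_eq_mul_div _ _ (ā / (n : ℝ)), hā, hn p hp]; ring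
    have e2' : 1 / ((n : ℝ) + 1) * HH (head q) + (n : ℝ) / ((n : ℝ) + 1) * (bb / n) = HH q / ((n : ℝ) + 1) := by
      rw [HH_chain hq, ← hbb, add_div, div_mul_eq_mul_div _ _ (bb / (n : ℝ)), hbb, hn q hq]; ring
    rw [e1', e2'] at hcv
    have h1 : ((n : ℝ) + 1) * GG η (HH p / ((n : ℝ) + 1)) (HH q / ((n : ℝ) + 1)) ≤
        GG η (HH (head p)) (HH (head q)) + (n : ℝ) * GG η (ā / n) (bb / n) := by
      refine le_trans (mul_le_mul_of_nonneg_left hcv (by positivity)) (le_of_eq ?_)
      field_simp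
    push_cast
    linarith

end Vale.Agent.P369
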