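import Vale.Agent.P369.Classical

/-!
The beam splitter in the number basis.  The amplitude `amp η k l i j` is the coefficient of the number
state with `i` photons in mode `c` and `j` in mode `d` in the image of the number state `(k, l)`:
`U |k,l⟩ = (√η a† - √(1-η) b†)^k (√(1-η) a† + √η b†)^l |0,0⟩ / √(k! l!)`.
-/

namespace Vale.Agent.P369

open Real Polynomial Finset

/-- Amplitude of `|i,j⟩` in the image of `|k,l⟩` under the beam splitter. -/
noncomputable def amp (η : ℝ) (k l i j : ℕ) : ℝ :=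
  if i + j = k + l then
    Real.sqrt ((i.factorial * j.factorial : ℝ) / (k.factorial * l.factorial)) *
      (((C (Real.sqrt η) * X - C (Real.sqrt (1 - η))) ^ k *
        (C (Real.sqrt (1 - η)) * X + C (Real.sqrt η)) ^ l).coeff i)
  else 0

/-- Matrix entry of the output state in the number basis, for number-diagonal inputs `p`, `q`. -/
noncomputable def outEntry (η : ℝ) {n : ℕ} (p q : (Fin n → ℕ) → ℝ) (i i' : Fin n → ℕ) : ℝ :=
  ∑' k : Fin n → ℕ, ∑' l : Fin n → ℕ, p k * q l *
    ∑' j : Fin n → ℕ, (∏ m, amp η (k m) (l m) (i m) (j m)) * (∏ m, amp η (k m) (l m) (i' m) (j m))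

/-- Entropy of a state which is diagonal in the number basis. -/
noncomputable def diagEntropy {n : ℕ} (f : (Fin n → ℕ) → ℝ) : ℝ := ∑' i, negMulLog (f i)

/-- `p` is a number-diagonal state with at most one photon in each mode. -/
def IsBitState {n : ℕ} (p : (Fin n → ℕ) → ℝ) : Prop :=
  (∀ k, 0 ≤ p k) ∧ (∀ k, (∃ m, 1 < k m) → p k = 0) ∧ ∑' k, p k = 1

/-- The embedding of bit strings. -/
def emb {n d : ℕ} (x : Fin n → Fin d) : Fin n → ℕ := fun m => (x m : ℕ)

theorem emb_injective {n d : ℕ} : Function.Injective (emb : (Fin n → Fin d) → Fin n → ℕ) :=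
  fun _ _ h => funext fun m => Fin.ext (congrFun h m)

theorem tsum_emb {n d : ℕ} (g : (Fin n → ℕ) → ℝ) (hg : ∀ k, (∃ m, d ≤ k m) → g k = 0) :
    ∑' k, g k = ∑ x : Fin n → Fin d, g (emb x) := by
  rw [← tsum_fintype (L := .unconditional _), emb_injective.tsum_eq]
  intro k hk
  by_cases h : ∃ m, d ≤ k m
  · exact absurd (hg k h) hk
  · push Not at h
    exact ⟨fun m => ⟨k m, h m⟩, rfl⟩

theorem amp_eq_zero {η : ℝ} {k l i j : ℕ} (h : i + j ≠ k + l) : amp η k l i j = 0 := if_neg h

/-- Probability that the first output mode has `i` photons. -/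
noncomputable def kerN (η : ℝ) (k l i : ℕ) : ℝ := amp η k l i (k + l - i) ^ 2

theorem tsum_amp {η : ℝ} {n : ℕ} (k l i i' : Fin n → ℕ) :
    ∑' j : Fin n → ℕ, (∏ m, amp η (k m) (l m) (i m) (j m)) * (∏ m, amp η (k m) (l m) (i' m) (j m)) =
      if i = i' then ∏ m, kerN η (k m) (l m) (i m) else 0 := by
  rw [tsum_eq_single (fun m => k m + l m - i m)]
  · split_ifs with h
    · subst h; rw [← prod_mul_distrib]; exact prod_congr rfl fun m _ => (sq _).symm
    · obtain ⟨m, hm⟩ := Function.ne_iff.1 h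
      by_cases h1 : i m + (k m + l m - i m) = k m + l m
      · rw [prod_eq_zero (f := fun m => amp η (k m) (l m) (i' m) (k m + l m - i m)) (mem_univ m)
          (amp_eq_zero (by omega)), mul_zero]
      · rw [prod_eq_zero (f := fun m => amp η (k m) (l m) (i m) (k m + l m - i m)) (mem_univ m)
          (amp_eq_zero h1), zero_mul]
  · intro j hj
    obtain ⟨m, hm⟩ := Function.ne_iff.1 hj
    rw [prod_eq_zero (mem_univ m) (amp_eq_zero (i := i m) (by omega)), zero_mul]

theorem kerN_eq {η : ℝ} (e0 : 0 ≤ η) (e1 : η ≤ 1) (x y : Fin 2) (c : Fin 3) :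
    kerN η x y c = ker η x y c := by
  have h1 := Real.mul_self_sqrt e0
  have h2 := Real.mul_self_sqrt (sub_nonneg.2 e1)
  have h3 := Real.mul_self_sqrt (show (0 : ℝ) ≤ 2 by norm_num)
  fin_cases x <;> fin_cases y <;> fin_cases c <;>
    simp [kerN, ker, amp, Nat.factorial, mul_add, sub_mul, mul_pow, coeff_X, coeff_C, coeff_one,
      Real.sq_sqrt e0, Real.sq_sqrt (sub_nonneg.2 e1), coeff_mul,
      Finset.Nat.antidiagonal_succ] <;>
    nlinarith [h1, h2, h3]

theorem kerN_high {η : ℝ} {k l i : ℕ} (h : k + l < i) : kerN η k l i = 0 := by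
  rw [kerN, amp_eq_zero (by omega)]; norm_num

/-- The output is number-diagonal. -/
theorem outEntry_eq {η : ℝ} {n : ℕ} {p q : (Fin n → ℕ) → ℝ} (hp : IsBitState p) (hq : IsBitState q)
    (i i' : Fin n → ℕ) :
    outEntry η p q i i' =
      if i = i' then ∑ x : Fin n → Fin 2, ∑ y : Fin n → Fin 2,
        p (emb x) * q (emb y) * ∏ m, kerN η (x m) (y m) (i m) else 0 := by
  unfold outEntry
  simp_rw [tsum_amp]
  rw [tsum_emb (d := 2) _ (fun k hk => by
    have := hp.2.1 k (by obtain ⟨m, hm⟩ := hk; exact ⟨m, hm⟩)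
    simp [this])]
  split_ifs with h
  · refine sum_congr rfl fun x _ => ?_
    rw [tsum_emb (d := 2) _ (fun k hk => by
      have := hq.2.1 k (by obtain ⟨m, hm⟩ := hk; exact ⟨m, hm⟩)
      simp [this])]
    rfl
  · simp

theorem isDist_bits {n : ℕ} {p : (Fin n → ℕ) → ℝ} (hp : IsBitState p) :
    IsDist fun x : Fin n → Fin 2 => p (emb x) :=
  ⟨fun _ => hp.1 _, by rw [← tsum_emb (d := 2) p fun k hk => hp.2.1 k hk]; exact hp.2.2⟩

theorem diagEntropy_bits {n : ℕ} {p : (Fin n → ℕ) → ℝ} (hp : IsBitState p) :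
    diagEntropy p = HH fun x : Fin n → Fin 2 => p (emb x) :=
  tsum_emb (d := 2) _ fun k hk => by rw [hp.2.1 k hk, negMulLog_zero]

theorem diagEntropy_out {η : ℝ} (e0 : 0 ≤ η) (e1 : η ≤ 1) {n : ℕ} {p q : (Fin n → ℕ) → ℝ}
    (hp : IsBitState p) (hq : IsBitState q) :
    diagEntropy (fun i => outEntry η p q i i) =
      HH (outB η (fun x => p (emb x)) fun y => q (emb y)) := by
  unfold diagEntropy
  simp only [outEntry_eq hp hq, if_true]
  rw [tsum_emb (d := 3)]
  · refine sum_congr rfl fun z _ => ?_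
    simp only [outB, emb, kerN_eq e0 e1]
  · rintro i ⟨m, hm⟩
    rw [sum_eq_zero fun x _ => sum_eq_zero fun y _ => by
      rw [prod_eq_zero (mem_univ m) (kerN_high (by have := (x m).isLt; have := (y m).isLt; omega)), mul_zero]]
    exact negMulLog_zero

/-- The entropy photon-number inequality for number-diagonal states with at most one photon per mode. -/
theorem main {n : ℕ} (hn : 1 ≤ n) {η : ℝ} (e0 : 0 ≤ η) (e1 : η ≤ 1) {p q : (Fin n → ℕ) → ℝ}
    (hp : IsBitState p) (hq : IsBitState q) :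
    η * phN (diagEntropy p / n) + (1 - η) * phN (diagEntropy q / n) ≤
      phN (diagEntropy (fun i => outEntry η p q i i) / n) := by
  have h := main_classical e0 e1 n (isDist_bits hp) (isDist_bits hq)
  rw [← diagEntropy_bits hp, ← diagEntropy_bits hq, ← diagEntropy_out e0 e1 hp hq] at h
  have hn' : (0 : ℝ) < n := by exact_mod_cast hn
  have ha : 0 ≤ diagEntropy p / n := by
    rw [diagEntropy_bits hp]; exact div_nonneg (HH_nonneg (isDist_bits hp)) hn'.le
  have hb : 0 ≤ diagEntropy q / n := by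
    rw [diagEntropy_bits hq]; exact div_nonneg (HH_nonneg (isDist_bits hq)) hn'.le
  have hM : 0 ≤ η * phN (diagEntropy p / n) + (1 - η) * phN (diagEntropy q / n) :=
    add_nonneg (mul_nonneg e0 (phN_nonneg ha)) (mul_nonneg (by linarith) (phN_nonneg hb))
  have h2 : GG η (diagEntropy p / n) (diagEntropy q / n) ≤ diagEntropy (fun i => outEntry η p q i i) / n := by
    rw [le_div_iff₀ hn']; linarith
  have h3 := phN_mono (show 0 ≤ GG η (diagEntropy p / n) (diagEntropy q / n) from thermalS_nonneg hM) h2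
  rwa [GG, phN_thermalS hM] at h3

end Vale.Agent.P369
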